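import Vale.Agent.P181.MN.Defs

set_option autoImplicit false

/-! P181, line MN, (N2): the numbers. -/

namespace Vale.Agent.P181.MN.H435

lemma choose_fact (a b : ℕ) (ha : 1 ≤ a) (hb : 1 ≤ b) :
    (a * b + b - 1).choose (b - 1) * b.factorial ≤ (2 * (a * b)) ^ b := by
  have h1 : (a * b + b - 1).choose (b - 1) * (b - 1).factorial ≤ (2 * (a * b)) ^ (b - 1) := by
    have h2 := Nat.descFactorial_le_pow (a * b + b - 1) (b - 1)
    rw [Nat.descFactorial_eq_factorial_mul_choose] at h2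
    have h3 : a * b + b - 1 ≤ 2 * (a * b) := by
      have : 1 * b ≤ a * b := Nat.mul_le_mul_right b ha
      omega
    calc (a * b + b - 1).choose (b - 1) * (b - 1).factorial
        = (b - 1).factorial * (a * b + b - 1).choose (b - 1) := Nat.mul_comm _ _
      _ ≤ (a * b + b - 1) ^ (b - 1) := h2
      _ ≤ (2 * (a * b)) ^ (b - 1) := Nat.pow_le_pow_left h3 _
  obtain ⟨c, rfl⟩ : ∃ c, b = c + 1 := ⟨b - 1, by omega⟩
  rw [Nat.factorial_succ, pow_succ]
  have h4 : c + 1 ≤ 2 * (a * (c + 1)) := by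
    have : 1 * (c + 1) ≤ a * (c + 1) := Nat.mul_le_mul_right _ ha
    omega
  simp only [Nat.add_sub_cancel] at h1 ⊢
  calc (a * (c + 1) + (c + 1) - 1).choose c * ((c + 1) * c.factorial)
      = (a * (c + 1) + (c + 1) - 1).choose c * c.factorial * (c + 1) := by ring
    _ ≤ (2 * (a * (c + 1))) ^ c * (2 * (a * (c + 1))) := Nat.mul_le_mul h1 h4

lemma lhs_le (a b m : ℕ) (ha : 1 ≤ a) (hb : 1 ≤ b) :
    ((a + b).choose a : ℝ) * 2 ^ ((m - 2) * a) * ((b - 1).factorial * (b - 2).factorial) *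
    (((a * b + b - 1).choose (b - 1) : ℝ) * b.factorial) ≤
    2 ^ (a + b) * 2 ^ ((m - 2) * a) * ((b : ℝ) ^ b * (b : ℝ) ^ b) * (2 * ((a : ℝ) * b)) ^ b := by
  have h1 : (a + b).choose a ≤ 2 ^ (a + b) := Nat.choose_le_two_pow _ _
  have h2 : ∀ c, c ≤ b → c.factorial ≤ b ^ b := by
    intro c hc
    calc c.factorial ≤ b.factorial := Nat.factorial_le hc
      _ ≤ b ^ b := Nat.factorial_le_pow b
  have h3 := choose_fact a b ha hb
  have h4 : (a + b).choose a * 2 ^ ((m - 2) * a) * ((b - 1).factorial * (b - 2).factorial) *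
      ((a * b + b - 1).choose (b - 1) * b.factorial) ≤
      2 ^ (a + b) * 2 ^ ((m - 2) * a) * (b ^ b * b ^ b) * (2 * (a * b)) ^ b := by
    apply Nat.mul_le_mul _ h3
    apply Nat.mul_le_mul
    · exact Nat.mul_le_mul_right _ h1
    · exact Nat.mul_le_mul (h2 _ (by omega)) (h2 _ (by omega))
  exact_mod_cast h4

lemma final_ineq (e κ l A B M mu β γ L1 D : ℝ) (he : 0 < e) (hκ0 : 0 ≤ κ)
    (hκ : κ ≤ e / 50) (hl : 120 ≤ e * l) (hl0 : 0 < l) (hA : 0 < A) (hAB : A ≤ B)
    (hB : 120 ≤ e * B) (hM : M = mu + 2) (hmu : 1 ≤ mu) (hMB : M ≤ B) (hβ : β ≤ (1 + κ) * l)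
    (hγ : (2 - κ) * l ≤ γ) (hL : 9 / 10 * l ≤ L1) (hD : 9 / 10 * (e * B) ≤ D) (l2 : ℝ)
    (hl2 : l2 ≤ 1) (hl20 : 0 ≤ l2) :
    (A + B) * l2 + mu * A * l2 + (B * β + B * β) + B * (l2 + (l + β)) ≤
      2 * (B - M) * γ + mu * D * L1 := by
  have hB0 : 0 < B := hA.trans_le hAB
  have hmu0 : 0 < mu := by linarith
  have k1 : (A + B) * l2 + mu * A * l2 + B * l2 ≤ 4 * (mu * B) := by
    have h1 : (A + B) * l2 ≤ 2 * B := by
      calc (A + B) * l2 ≤ (A + B) * 1 := mul_le_mul_of_nonneg_left hl2 (by linarith)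
        _ ≤ 2 * B := by linarith
    have h2 : mu * A * l2 ≤ mu * B := by
      calc mu * A * l2 ≤ mu * A * 1 := mul_le_mul_of_nonneg_left hl2 (by positivity)
        _ ≤ mu * B := by
            rw [mul_one]
            exact mul_le_mul_of_nonneg_left hAB hmu0.le
    have h3 : B * l2 ≤ B := by
      calc B * l2 ≤ B * 1 := mul_le_mul_of_nonneg_left hl2 hB0.le
        _ = B := mul_one B
    have h4 : B ≤ mu * B := by
      calc B = 1 * B := (one_mul B).symm
        _ ≤ mu * B := mul_le_mul_of_nonneg_right hmu hB0.le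
    linarith
  have k2 : B * β + B * β + B * β ≤ 3 * (B * l) + 3 * (κ * (B * l)) := by
    have h1 : B * β ≤ B * ((1 + κ) * l) := mul_le_mul_of_nonneg_left hβ hB0.le
    have h2 : B * ((1 + κ) * l) = B * l + κ * (B * l) := by ring
    linarith
  have k3 : 4 * (B * l) - 4 * (M * l) - 2 * (κ * (B * l)) ≤ 2 * (B - M) * γ := by
    have h1 : 2 * (B - M) * ((2 - κ) * l) ≤ 2 * (B - M) * γ :=
      mul_le_mul_of_nonneg_left hγ (by linarith)
    have h2 : 2 * (B - M) * ((2 - κ) * l) =
        4 * (B * l) - 4 * (M * l) - 2 * (κ * (B * l)) + 2 * (κ * (M * l)) := by ring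
    have h3 : 0 ≤ κ * (M * l) := by
      have : 0 ≤ M := by linarith
      positivity
    linarith
  have k4 : 81 / 100 * (mu * (e * B * l)) ≤ mu * D * L1 := by
    calc 81 / 100 * (mu * (e * B * l)) = mu * (9 / 10 * (e * B)) * (9 / 10 * l) := by ring
      _ ≤ mu * D * L1 := by
          apply mul_le_mul _ hL (by positivity)
          · apply mul_nonneg hmu0.le
            refine le_trans ?_ hD
            positivity
          · exact mul_le_mul_of_nonneg_left hD hmu0.le
  have k5 : 4 * (mu * B) ≤ 1 / 30 * (mu * (e * B * l)) := by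
    have h1 : mu * B * 120 ≤ mu * B * (e * l) := mul_le_mul_of_nonneg_left hl (by positivity)
    have h2 : mu * B * (e * l) = mu * (e * B * l) := by ring
    linarith
  have k6 : 5 * (κ * (B * l)) ≤ 1 / 10 * (mu * (e * B * l)) := by
    have h1 : κ * (B * l) ≤ e / 50 * (B * l) := mul_le_mul_of_nonneg_right hκ (by positivity)
    have h2 : 1 * (e * B * l) ≤ mu * (e * B * l) :=
      mul_le_mul_of_nonneg_right hmu (by positivity)
    have h3 : e / 50 * (B * l) = 1 / 50 * (e * B * l) := by ring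
    linarith
  have k7 : 4 * (M * l) ≤ 1 / 10 * (mu * (e * B * l)) := by
    have h1 : mu * l * 120 ≤ mu * l * (e * B) := mul_le_mul_of_nonneg_left hB (by positivity)
    have h2 : mu * l * (e * B) = mu * (e * B * l) := by ring
    have h3 : M * l ≤ 3 * (mu * l) := by
      have : M ≤ 3 * mu := by linarith
      calc M * l ≤ 3 * mu * l := mul_le_mul_of_nonneg_right this hl0.le
        _ = 3 * (mu * l) := by ring
    linarith
  have k8 : 0 ≤ mu * (e * B * l) := by positivity
  have k9 : (A + B) * l2 + mu * A * l2 + (B * β + B * β) + B * (l2 + (l + β)) =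
      ((A + B) * l2 + mu * A * l2 + B * l2) + (B * β + B * β + B * β) + B * l := by ring
  rw [k9]
  linarith

/-- **(N2)** -/
theorem numN : NumN := by
  intro ε hε
  obtain ⟨e, he⟩ : ∃ e, e = ε / (1 + ε) := ⟨_, rfl⟩
  have he0 : 0 < e := by rw [he]; positivity
  obtain ⟨K, hK⟩ : ∃ K : ℕ, K = max 20 ⌈50 / e⌉₊ := ⟨_, rfl⟩
  have hK20 : 20 ≤ K := by rw [hK]; exact le_max_left _ _
  have hKe : 50 / e ≤ K := by
    refine (Nat.le_ceil _).trans ?_
    rw [hK]
    exact_mod_cast le_max_right _ _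
  refine ⟨K, ⌈Real.exp (120 / e)⌉₊, hK20, ?_⟩
  intro a b m g ha hab hbK hm hmb hg
  have ha1 : Real.exp (120 / e) ≤ a := (Nat.le_ceil _).trans (by exact_mod_cast ha)
  have ha0 : (0 : ℝ) < a := (Real.exp_pos _).trans_le ha1
  have haN : 1 ≤ a := by exact_mod_cast ha0
  have hl : 120 / e ≤ Real.log a := by
    rw [Real.le_log_iff_exp_le ha0]
    exact ha1
  have hae : 120 / e ≤ a := by
    have := Real.add_one_le_exp (120 / e)
    linarith
  have hab' : (a : ℝ) ≤ b := by nlinarith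
  have habN : a ≤ b := by exact_mod_cast hab'
  have hb0 : (0 : ℝ) < b := ha0.trans_le hab'
  have hbN : 1 ≤ b := by omega
  have hBA : e * b ≤ b - a := by
    have h1 : (0 : ℝ) < 1 + ε := by positivity
    rw [he, div_mul_eq_mul_div, div_le_iff₀ h1]
    nlinarith
  have heB : 120 ≤ e * b := by
    rw [div_le_iff₀ he0] at hae
    nlinarith
  have hel : 120 ≤ e * Real.log a := by
    rw [div_le_iff₀ he0] at hl
    linarith
  have hl0 : 0 < Real.log a := by
    by_contra h
    push Not at h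
    nlinarith
  have hmb' : m ≤ b := by
    calc m = m ^ 1 := (pow_one m).symm
      _ ≤ m ^ 20 := Nat.pow_le_pow_right (by omega) (by norm_num)
      _ ≤ b := hmb
  have hg1 : 1 ≤ g := by
    by_contra h
    have hg0 : g = 0 := by omega
    rw [hg0, zero_pow (by omega)] at hg
    have := Nat.one_le_pow (2 * K - 1) a haN
    omega
  have hg0 : (0 : ℝ) < g := by exact_mod_cast hg1
  have hK0 : (0 : ℝ) < K := by
    have : (20 : ℝ) ≤ K := by exact_mod_cast hK20
    linarith
  have hK20' : (20 : ℝ) ≤ K := by exact_mod_cast hK20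
  -- logarithms
  have hβ : K * Real.log b ≤ (K + 1) * Real.log a := by
    have h1 : ((b : ℝ)) ^ K ≤ (a : ℝ) ^ (K + 1) := by exact_mod_cast hbK
    have h2 := Real.log_le_log (by positivity) h1
    rw [Real.log_pow, Real.log_pow] at h2
    push_cast at h2
    exact h2
  have hγ : (2 * K - 1) * Real.log a ≤ K * Real.log g := by
    have h1 : ((a : ℝ)) ^ (2 * K - 1) ≤ (g : ℝ) ^ K := by exact_mod_cast hg
    have h2 := Real.log_le_log (by positivity) h1
    rw [Real.log_pow, Real.log_pow, Nat.cast_sub (by omega)] at h2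
    push_cast at h2
    exact h2
  have hβ' : Real.log b ≤ (1 + 1 / (K : ℝ)) * Real.log a := by
    have h1 : (1 + 1 / (K : ℝ)) * Real.log a = ((K + 1) * Real.log a) / K := by
      field_simp
    rw [h1, le_div_iff₀ hK0]
    linarith
  have hγ' : (2 - 1 / (K : ℝ)) * Real.log a ≤ Real.log g := by
    have h1 : (2 - 1 / (K : ℝ)) * Real.log a = ((2 * K - 1) * Real.log a) / K := by
      field_simp
    rw [h1, div_le_iff₀ hK0]
    linarith
  have hκ : 1 / (K : ℝ) ≤ e / 50 := by
    rw [div_le_iff₀ he0] at hKe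
    rw [div_le_div_iff₀ hK0 (by norm_num)]
    linarith
  have hb2 : 2 < b := by
    have : (2 : ℝ) < b := by
      have h1 : e ≤ 1 := by
        rw [he, div_le_one (by positivity)]
        linarith
      nlinarith
    exact_mod_cast this
  have hb2' : (0 : ℝ) < ((b - 2 : ℕ) : ℝ) := by
    have : 0 < b - 2 := by omega
    exact_mod_cast this
  have hL1 : 9 / 10 * Real.log a ≤ Real.log (1 + (g : ℝ) / ((b - 2 : ℕ) : ℝ)) := by
    have h1 : Real.log g - Real.log b ≤ Real.log (1 + (g : ℝ) / ((b - 2 : ℕ) : ℝ)) := by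
      rw [← Real.log_div hg0.ne' hb0.ne']
      apply Real.log_le_log (by positivity)
      have h2 : ((b - 2 : ℕ) : ℝ) ≤ b := by exact_mod_cast Nat.sub_le b 2
      have h3 : (g : ℝ) / b ≤ (g : ℝ) / ((b - 2 : ℕ) : ℝ) :=
        div_le_div_of_nonneg_left hg0.le hb2' h2
      linarith
    have h4 : 9 / 10 * Real.log a ≤ Real.log g - Real.log b := by
      have h5 : K * (9 / 10 * Real.log a) ≤ K * (Real.log g - Real.log b) := by nlinarith
      exact le_of_mul_le_mul_left h5 hK0
    exact h4.trans h1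
  have hD0 : a + 2 ≤ b := by
    have : (a : ℝ) + 2 ≤ b := by linarith
    exact_mod_cast this
  have hD : ((b - 2 - a : ℕ) : ℝ) = b - 2 - a := by
    rw [Nat.cast_sub (by omega), Nat.cast_sub (by omega)]
    norm_num
  have hm2 : ((m - 2 : ℕ) : ℝ) = m - 2 := by
    rw [Nat.cast_sub (by omega)]
    norm_num
  have hbm : ((b - m : ℕ) : ℝ) = b - m := by
    rw [Nat.cast_sub hmb']
  have hm3 : (3 : ℝ) ≤ m := by exact_mod_cast hm
  refine (lhs_le a b m haN hbN).trans ?_
  have hpos : (0 : ℝ) < 1 + (g : ℝ) / ((b - 2 : ℕ) : ℝ) := by positivity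
  rw [← Real.log_le_log_iff (by positivity) (by positivity)]
  rw [Real.log_mul (by positivity) (by positivity), Real.log_mul (by positivity) (by positivity),
    Real.log_mul (by positivity) (by positivity), Real.log_mul (by positivity) (by positivity),
    Real.log_mul (by positivity) (by positivity), Real.log_pow, Real.log_pow, Real.log_pow,
    Real.log_pow, Real.log_pow, Real.log_pow, Real.log_mul (by norm_num) (by positivity),
    Real.log_mul ha0.ne' hb0.ne']
  have hl2 : Real.log 2 ≤ 1 := by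
    have := Real.log_two_lt_d9
    linarith
  have hl20 : 0 ≤ Real.log 2 := Real.log_nonneg (by norm_num)
  have hfin := final_ineq e (1 / (K : ℝ)) (Real.log a) a b m (m - 2) (Real.log b) (Real.log g)
    (Real.log (1 + (g : ℝ) / ((b - 2 : ℕ) : ℝ))) (b - 2 - a) he0 (by positivity) hκ hel hl0 ha0
    hab' heB (by ring) (by linarith) (by exact_mod_cast hmb') hβ' hγ' hL1 (by linarith)
    (Real.log 2) hl2 hl20
  have e1 : ((a + b : ℕ) : ℝ) * Real.log 2 + (((m - 2) * a : ℕ) : ℝ) * Real.log 2 +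
      ((b : ℝ) * Real.log b + b * Real.log b) + b * (Real.log 2 + (Real.log a + Real.log b)) =
      ((a : ℝ) + b) * Real.log 2 + ((m : ℝ) - 2) * a * Real.log 2 +
      ((b : ℝ) * Real.log b + b * Real.log b) + b * (Real.log 2 + (Real.log a + Real.log b)) := by
    rw [Nat.cast_mul, hm2, Nat.cast_add]
  have e2 : ((2 * (b - m) : ℕ) : ℝ) * Real.log g +
      (((m - 2) * (b - 2 - a) : ℕ) : ℝ) * Real.log (1 + (g : ℝ) / ((b - 2 : ℕ) : ℝ)) =
      2 * ((b : ℝ) - m) * Real.log g +
      ((m : ℝ) - 2) * ((b : ℝ) - 2 - a) * Real.log (1 + (g : ℝ) / ((b - 2 : ℕ) : ℝ)) := by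
    rw [Nat.cast_mul, Nat.cast_mul, hbm, hm2, hD]
    norm_num
  rw [e1, e2]
  exact hfin

end Vale.Agent.P181.MN.H435
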